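import Vale.Agent.P011.E6.Ids
import Vale.Agent.P011.H261.Rl.Defs

/-!
The conjugation of the coordinates in the standard model.
-/

namespace Vale.Agent.P011.H44.Rl

open Vale.Agent.P011.MPQ Vale.Agent.P011.D4 Vale.Agent.P011.D4.Oct Vale.Agent.P011.E6
open Vale.Agent.P011.E6.Alb Vale.Agent.P011.H261.Rl
open scoped ComplexConjugate

/-- The complex quaternions. -/
abbrev QC : Type := Qt (-1 : ℂˣ) (-1 : ℂˣ)

/-- The complex octonions. -/
abbrev OC : Type := Oct (-1 : ℂˣ) (-1 : ℂˣ) (-1 : ℂˣ)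

/-- The standard model. -/
abbrev VC : Type := Alb (-1 : ℂˣ) (-1 : ℂˣ) (-1 : ℂˣ)

theorem cjq_add (x y : QC) : cjq (x + y) = cjq x + cjq y := by
  ext <;> simp [cjq]

theorem cjq_neg (x : QC) : cjq (-x) = -cjq x := by
  ext <;> simp [cjq]

theorem cjq_smul (s : ℂ) (x : QC) : cjq (s • x) = conj s • cjq x := by
  ext <;> simp [cjq]

theorem cjq_mul (x y : QC) : cjq (x * y) = cjq x * cjq y := by
  ext <;> simp [cjq]

theorem cjq_star (x : QC) : cjq (star x) = star (cjq x) := by
  ext <;> simp [cjq]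

theorem cjq_cjq (x : QC) : cjq (cjq x) = x := by
  ext <;> simp [cjq]

theorem cjo_add (x y : OC) : cjo (x + y) = cjo x + cjo y := by
  ext1
  · exact cjq_add _ _
  · exact cjq_add _ _

theorem cjo_neg (x : OC) : cjo (-x) = -cjo x := by
  ext1
  · exact cjq_neg _
  · exact cjq_neg _

theorem cjo_smul (s : ℂ) (x : OC) : cjo (s • x) = conj s • cjo x := by
  ext1
  · exact cjq_smul _ _
  · exact cjq_smul _ _

theorem cjo_sub (x y : OC) : cjo (x - y) = cjo x - cjo y := by
  rw [sub_eq_add_neg, cjo_add, cjo_neg, ← sub_eq_add_neg]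

theorem cjo_cjo (x : OC) : cjo (cjo x) = x := by
  ext1
  · exact cjq_cjq _
  · exact cjq_cjq _

theorem cjo_mul (x y : OC) : cjo (x * y) = cjo x * cjo y := by
  ext1
  · change cjq (x.fst * y.fst + ((-1 : ℂˣ) : ℂ) • (star y.snd * x.snd)) =
      cjq x.fst * cjq y.fst + ((-1 : ℂˣ) : ℂ) • (star (cjq y.snd) * cjq x.snd)
    rw [cjq_add, cjq_mul, cjq_smul, cjq_mul, cjq_star]
    simp
  · change cjq (y.snd * x.fst + x.snd * star y.fst) =
      cjq y.snd * cjq x.fst + cjq x.snd * star (cjq y.fst)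
    rw [cjq_add, cjq_mul, cjq_mul, cjq_star]

theorem cjo_star (x : OC) : cjo (star x) = star (cjo x) := by
  ext1
  · exact cjq_star _
  · exact cjq_neg _

theorem cjo_one : cjo (1 : OC) = 1 := by
  ext1 <;> ext <;> simp [cjo, cjq]

theorem norm_cjo (x : OC) : Oct.norm (cjo x) = conj (Oct.norm x) := by
  simp [Oct.norm, nrd, cjo, cjq]

theorem bil_cjo (x y : OC) : bil (cjo x) (cjo y) = conj (bil x y) := by
  rw [bil, bil, ← cjo_add, norm_cjo, norm_cjo, norm_cjo, map_sub, map_sub]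

theorem bil_cjo_oh (x y : OC) : bil (cjo x) y = 2 * oh x y := by
  rw [bil_eq]
  simp only [oh, qh, cjo, cjq, Units.val_neg, Units.val_one]
  ring

theorem cj_add (x y : VC) : cj (x + y) = cj x + cj y := by
  ext1 <;> simp only [cj, d1_add, d2_add, d3_add, x1_add, x2_add, x3_add, map_add, cjo_add]

theorem cj_smul (s : ℂ) (x : VC) : cj (s • x) = conj s • cj x := by
  ext1 <;> simp only [cj, d1_smul, d2_smul, d3_smul, x1_smul, x2_smul, x3_smul, map_mul, cjo_smul]

theorem cj_cj (x : VC) : cj (cj x) = x := by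
  ext1 <;> simp only [cj, Complex.conj_conj, cjo_cjo]

theorem cj_zero : cj (0 : VC) = 0 := by
  have h := cj_smul 0 (0 : VC)
  rwa [zero_smul, map_zero, zero_smul] at h

theorem adj_cj (x : VC) : adj (cj x) = cj (adj x) := by
  ext1 <;>
  simp only [cj, adj, map_sub, map_mul, norm_cjo, cjo_sub, cjo_star, cjo_mul, cjo_smul]

theorem cub_cj (x : VC) : cub (cj x) = conj (cub x) := by
  simp only [cj, cub, map_sub, map_add, map_mul, norm_cjo, ← bil_cjo, cjo_mul, cjo_one]

/-- The inner product is the hermitian form attached to the trace form. -/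
theorem inner_eq_tf (x y : VC) : inner ℂ x y = tf (cj x) y := by
  rw [inner_eq, hs, tf]
  simp only [cj, bil_cjo_oh]
  ring

end Vale.Agent.P011.H44.Rl
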