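import Vale.Agent.P011.H44.Rl.Cx
import Mathlib.Analysis.SpecialFunctions.Trigonometric.Basic

/-!
The one-parameter groups of related triples that lift the rotations of the planes.
-/

open Module

namespace Vale.Agent.P011.H44.Rl

open Vale.Agent.P011.MPQ Vale.Agent.P011.D4 Vale.Agent.P011.D4.Oct Vale.Agent.P011.E6
open Vale.Agent.P011.E6.Alb Vale.Agent.P011.H261.Rl

section lift

variable (u w : OR)

/-- The first component of the lift. -/
noncomputable def lf0 : OR →ₗ[ℝ] OR where
  toFun x := star u * (w * x)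
  map_add' x y := by rw [mul_add, mul_add]
  map_smul' r x := by rw [mul_smul_oct, mul_smul_oct, RingHom.id_apply]

/-- The second component of the lift. -/
noncomputable def lf1 : OR →ₗ[ℝ] OR where
  toFun x := (x * w) * star u
  map_add' x y := by rw [add_mul, add_mul]
  map_smul' r x := by rw [smul_mul_oct, smul_mul_oct, RingHom.id_apply]

/-- The third component of the lift. -/
noncomputable def lf2 : OR →ₗ[ℝ] OR where
  toFun x := u * (star w * x * star w) * u
  map_add' x y := by simp only [mul_add, add_mul]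
  map_smul' r x := by simp only [mul_smul_oct, smul_mul_oct, RingHom.id_apply]

theorem lf0_apply (x : OR) : lf0 u w x = star u * (w * x) := rfl
theorem lf1_apply (x : OR) : lf1 u w x = (x * w) * star u := rfl
theorem lf2_apply (x : OR) : lf2 u w x = u * (star w * x * star w) * u := rfl

end lift

variable {u v w : OR}

theorem mul_mul_eq' (hu : Oct.norm u = 1) (x : OR) : u * star x * u = bil u x • u - x := by
  rw [flex, mul_mul_eq, star_star, hu, one_smul]

theorem mid_eq (hu : Oct.norm u = 1) (hw : Oct.norm w = 1) (x : OR) :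
    lf2 u w x = x - bil u x • u - bil w x • w + (bil w x * bil u w) • u := by
  have h1 : star w * x * star w = bil w x • star w - star x := by
    rw [flex, mul_mul_eq, bil_star_star, Oct.norm_star, hw, one_smul]
  rw [lf2_apply, h1, mul_sub, sub_mul, mul_smul_oct, smul_mul_oct, mul_mul_eq' hu,
    mul_mul_eq' hu, smul_sub, smul_smul]
  abel

/-- The lift is a related triple. -/
theorem rel_lift (hu : Oct.norm u = 1) (hw : Oct.norm w = 1) :
    IsRel (lf0 u w) (lf1 u w) (lf2 u w) := by
  refine ⟨fun x => ?_, fun x => ?_, fun x => ?_, fun x y z => ?_⟩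
  · rw [lf0_apply, Oct.norm_mul, Oct.norm_mul, Oct.norm_star, hu, hw, one_mul, one_mul]
  · rw [lf1_apply, Oct.norm_mul, Oct.norm_mul, Oct.norm_star, hu, hw, mul_one, mul_one]
  · rw [lf2_apply, Oct.norm_mul, Oct.norm_mul, Oct.norm_mul, Oct.norm_mul, Oct.norm_star, hu, hw]
    ring
  · rw [lf0_apply, lf1_apply, lf2_apply, moufang, moufang]
    have e : ∀ p q : OR, bil (p * q) 1 = bil p (star q) := fun p q => by
      rw [bil_mul_left', one_mul]
    rw [e, e, star_mul, star_mul, star_mul, star_mul, star_star, flex (star u),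
      bil_mul_mul_left, bil_mul_mul_right, flex w, bil_mul_mul_left, bil_mul_mul_right,
      Oct.norm_star, hu, hw]
    ring

section inter

variable {s₁ s₂ s₃ : OR →ₗ[ℝ] OR} (h : IsRel s₁ s₂ s₃)

theorem surj_of_norm {F : Type} [Field F] {a b c : Fˣ} [NeZero (2 : F)]
    {f : Oct a b c →ₗ[F] Oct a b c} (h : ∀ x, Oct.norm (f x) = Oct.norm x) :
    Function.Surjective f := by
  have : Module.Finite F (Oct a b c) := Module.Finite.equiv (D4.Oct.toPair (F := F)).symm
  refine LinearMap.surjective_of_injective (fun x y hxy => ?_)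
  refine eq_of_bil fun z => ?_
  rw [← bil_of_norm h, hxy, bil_of_norm h]

include h

theorem rel_31 (z x : OR) : s₃ z * s₁ x = star (s₂ (star (z * x))) := by
  rw [← star_star (s₃ z * s₁ x)]
  congr 1
  refine eq_of_bil fun t => ?_
  obtain ⟨y, rfl⟩ := surj_of_norm h.n2 t
  rw [tri2, h.tri, ← tri2, bil_of_norm h.n2]

theorem rel_23 (y z : OR) : s₂ y * s₃ z = star (s₁ (star (y * z))) := by
  rw [← star_star (s₂ y * s₃ z)]
  congr 1
  refine eq_of_bil fun t => ?_
  obtain ⟨x, rfl⟩ := surj_of_norm h.n1 t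
  rw [tri1, h.tri, ← tri1, bil_of_norm h.n1]

/-- A related triple and the lifts. -/
theorem rel_lf0 (hu : Oct.norm u = 1) (x : OR) :
    s₁ (lf0 u w x) = lf0 (s₃ u) (s₃ w) (s₁ x) := by
  have h1 : star (s₃ u) * (s₃ u * s₁ (star u * (w * x))) = s₁ (star u * (w * x)) := by
    rw [star_mul_mul, h.n3, hu, one_smul]
  rw [lf0_apply, lf0_apply, ← h1, rel_31 h, rel_31 h, mul_star_mul, hu, one_smul]

theorem rel_lf1 (hu : Oct.norm u = 1) (x : OR) :
    s₂ (lf1 u w x) = lf1 (s₃ u) (s₃ w) (s₂ x) := by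
  have h1 : (s₂ ((x * w) * star u) * s₃ u) * star (s₃ u) = s₂ ((x * w) * star u) := by
    rw [Oct.mul_mul_star, h.n3, hu, one_smul]
  rw [lf1_apply, lf1_apply, ← h1, rel_23 h, rel_23 h, mul_star_mul', hu, one_smul]

theorem rel_lf2 (hu : Oct.norm u = 1) (hw : Oct.norm w = 1) (x : OR) :
    s₃ (lf2 u w x) = lf2 (s₃ u) (s₃ w) (s₃ x) := by
  rw [mid_eq hu hw, mid_eq (by rw [h.n3, hu]) (by rw [h.n3, hw]), bil_of_norm h.n3,
    bil_of_norm h.n3, bil_of_norm h.n3, map_add, map_sub, map_sub, map_smul, map_smul, map_smul]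

end inter

section fam

/-- The point of the circle of `u` and `v`. -/
noncomputable def wv (u v : OR) (t : ℝ) : OR := Real.cos t • u + Real.sin t • v

theorem norm_wv (hu : Oct.norm u = 1) (hv : Oct.norm v = 1) (huv : bil u v = 0) (t : ℝ) :
    Oct.norm (wv u v t) = 1 := by
  rw [wv, norm_add, Oct.norm_smul, Oct.norm_smul, bil_smul_left, bil_smul_right, hu, hv, huv]
  nlinarith [Real.sin_sq_add_cos_sq t]

theorem lf0_wv (hu : Oct.norm u = 1) (t : ℝ) :
    lf0 u (wv u v t) = Real.cos t • (1 : OR →ₗ[ℝ] OR) + Real.sin t • lf0 u v := by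
  ext1 x
  rw [lf0_apply, wv, add_mul, mul_add, smul_mul_oct, smul_mul_oct, mul_smul_oct, mul_smul_oct,
    star_mul_mul, hu, one_smul]
  rfl

theorem lf1_wv (hu : Oct.norm u = 1) (t : ℝ) :
    lf1 u (wv u v t) = Real.cos t • (1 : OR →ₗ[ℝ] OR) + Real.sin t • lf1 u v := by
  ext1 x
  rw [lf1_apply, wv, mul_add, add_mul, mul_smul_oct, mul_smul_oct, smul_mul_oct, smul_mul_oct,
    Oct.mul_mul_star, hu, one_smul]
  rfl

theorem lf0_sq (hu : Oct.norm u = 1) (hv : Oct.norm v = 1) (huv : bil u v = 0) :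
    lf0 u v * lf0 u v = -1 := by
  ext1 x
  change star u * (v * (star u * (v * x))) = -x
  have h1 := mul_star_mul_add v (v * x) u
  rw [star_mul_mul, hv, one_smul, bil_comm, huv, zero_smul] at h1
  have h2 := eq_neg_of_add_eq_zero_left h1
  rw [h2, mul_neg, star_mul_mul, hu, one_smul]

theorem lf1_sq (hu : Oct.norm u = 1) (hv : Oct.norm v = 1) (huv : bil u v = 0) :
    lf1 u v * lf1 u v = -1 := by
  ext1 x
  change ((((x * v) * star u) * v) * star u) = -x
  have h1 := mul_star_mul_add' u (x * v) v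
  rw [Oct.mul_mul_star, hv, one_smul, huv, zero_smul] at h1
  have h2 := eq_neg_of_add_eq_zero_left h1
  rw [h2, neg_mul, Oct.mul_mul_star, hu, one_smul]

theorem rot_add {M : OR →ₗ[ℝ] OR} (h : M * M = -1) (s t : ℝ) :
    Real.cos (s + t) • (1 : OR →ₗ[ℝ] OR) + Real.sin (s + t) • M =
      (Real.cos s • 1 + Real.sin s • M) * (Real.cos t • 1 + Real.sin t • M) := by
  rw [Real.cos_add, Real.sin_add, add_mul, mul_add, mul_add, smul_mul_smul_comm,
    smul_mul_smul_comm, smul_mul_smul_comm, smul_mul_smul_comm, h, one_mul, one_mul, mul_one,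
    smul_neg, sub_smul, add_smul]
  abel

/-- The third component, with the coordinates in the plane. -/
theorem lf2_wv (hu : Oct.norm u = 1) (hv : Oct.norm v = 1) (huv : bil u v = 0) (t : ℝ) (x : OR) :
    lf2 u (wv u v t) x = x +
      (Real.sin t * Real.cos t * bil v x - Real.sin t ^ 2 * bil u x) • u -
      (Real.sin t * Real.cos t * bil u x + Real.sin t ^ 2 * bil v x) • v := by
  rw [mid_eq hu (norm_wv hu hv huv t), wv, bil_add_left, bil_add_right, bil_smul_left,
    bil_smul_left, bil_smul_right, bil_smul_right, huv, bil_self, hu]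
  have h := Real.sin_sq_add_cos_sq t
  have h' : Real.cos t ^ 2 = 1 - Real.sin t ^ 2 := by linarith
  have e1 : (Real.cos t * bil u x + Real.sin t * bil v x) *
      (Real.cos t * (2 * 1) + Real.sin t * 0) =
      2 * (bil u x - Real.sin t ^ 2 * bil u x + Real.sin t * Real.cos t * bil v x) := by
    linear_combination 2 * bil u x * h'
  rw [e1, smul_add (Real.cos t * bil u x + Real.sin t * bil v x), smul_smul, smul_smul]
  have e2 : (Real.cos t * bil u x + Real.sin t * bil v x) * Real.cos t =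
      bil u x - Real.sin t ^ 2 * bil u x + Real.sin t * Real.cos t * bil v x := by
    linear_combination bil u x * h'
  have e3 : (Real.cos t * bil u x + Real.sin t * bil v x) * Real.sin t =
      Real.sin t * Real.cos t * bil u x + Real.sin t ^ 2 * bil v x := by ring
  rw [e2, e3]
  module

theorem bil_lf2_u (hu : Oct.norm u = 1) (hv : Oct.norm v = 1) (huv : bil u v = 0) (t : ℝ)
    (x : OR) : bil u (lf2 u (wv u v t) x) = bil u x +
      2 * (Real.sin t * Real.cos t * bil v x - Real.sin t ^ 2 * bil u x) := by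
  rw [lf2_wv hu hv huv, bil_sub_right, bil_add_right, bil_smul_right, bil_smul_right, huv,
    bil_self, hu]
  ring

theorem bil_lf2_v (hu : Oct.norm u = 1) (hv : Oct.norm v = 1) (huv : bil u v = 0) (t : ℝ)
    (x : OR) : bil v (lf2 u (wv u v t) x) = bil v x -
      2 * (Real.sin t * Real.cos t * bil u x + Real.sin t ^ 2 * bil v x) := by
  rw [lf2_wv hu hv huv, bil_sub_right, bil_add_right, bil_smul_right, bil_smul_right,
    bil_comm v u, huv, bil_self, hv]
  ring

theorem lf2_add (hu : Oct.norm u = 1) (hv : Oct.norm v = 1) (huv : bil u v = 0) (s t : ℝ) :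
    lf2 u (wv u v (s + t)) = lf2 u (wv u v s) * lf2 u (wv u v t) := by
  ext1 x
  rw [Module.End.mul_apply, lf2_wv hu hv huv s, bil_lf2_u hu hv huv, bil_lf2_v hu hv huv,
    lf2_wv hu hv huv, lf2_wv hu hv huv, Real.sin_add, Real.cos_add]
  have hs := Real.sin_sq_add_cos_sq s
  have ht := Real.sin_sq_add_cos_sq t
  have hs' : Real.cos s ^ 2 = 1 - Real.sin s ^ 2 := by linarith
  have ht' : Real.cos t ^ 2 = 1 - Real.sin t ^ 2 := by linarith
  generalize Real.sin s = a at *
  generalize Real.cos s = b at *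
  generalize Real.sin t = c at *
  generalize Real.cos t = d at *
  generalize bil u x = p
  generalize bil v x = q
  have e1 : (a * d + b * c) * (b * d - a * c) * q - (a * d + b * c) ^ 2 * p =
      (c * d * q - c ^ 2 * p) + (a * b * (q - 2 * (c * d * p + c ^ 2 * q)) -
        a ^ 2 * (p + 2 * (c * d * q - c ^ 2 * p))) := by
    linear_combination (q * a * b - p * a ^ 2) * ht' + (q * c * d - p * c ^ 2) * hs'
  have e2 : (a * d + b * c) * (b * d - a * c) * p + (a * d + b * c) ^ 2 * q =
      (c * d * p + c ^ 2 * q) + (a * b * (p + 2 * (c * d * q - c ^ 2 * p)) +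
        a ^ 2 * (q - 2 * (c * d * p + c ^ 2 * q))) := by
    linear_combination (p * a * b + q * a ^ 2) * ht' + (p * c * d + q * c ^ 2) * hs'
  rw [e1, e2, add_smul, add_smul]
  abel

/-- **The one-parameter group** of the rotations of the plane of `u` and `v`. -/
noncomputable def gam (u v : OR) (t : ℝ) : VC →ₗ[ℂ] VC :=
  cx (lf0 u (wv u v t)) (lf1 u (wv u v t)) (lf2 u (wv u v t))

theorem wv_zero (u v : OR) : wv u v 0 = u := by
  rw [wv, Real.cos_zero, Real.sin_zero, one_smul, zero_smul, add_zero]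

theorem rel_gam (hu : Oct.norm u = 1) (hv : Oct.norm v = 1) (huv : bil u v = 0) (t : ℝ) :
    IsRel (lf0 u (wv u v t)) (lf1 u (wv u v t)) (lf2 u (wv u v t)) :=
  rel_lift hu (norm_wv hu hv huv t)

theorem gam_zero (hu : Oct.norm u = 1) (hv : Oct.norm v = 1) (huv : bil u v = 0) :
    gam u v 0 = 1 := by
  have h2 : lf2 u (wv u v 0) = 1 := by
    ext1 x
    rw [lf2_wv hu hv huv, Real.sin_zero]
    simp
  rw [gam, lf0_wv hu, lf1_wv hu, h2, Real.cos_zero, Real.sin_zero, one_smul, zero_smul,
    zero_smul, add_zero, cx_one]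

theorem gam_add (hu : Oct.norm u = 1) (hv : Oct.norm v = 1) (huv : bil u v = 0) (s t : ℝ) :
    gam u v (s + t) = gam u v s * gam u v t := by
  rw [gam, gam, gam, ← cx_mul, ← lf2_add hu hv huv, lf0_wv hu, lf0_wv hu, lf0_wv hu, lf1_wv hu,
    lf1_wv hu, lf1_wv hu, ← rot_add (lf0_sq hu hv huv), ← rot_add (lf1_sq hu hv huv)]

theorem wv_pi (u v : OR) : wv u v Real.pi = -u := by
  rw [wv, Real.cos_pi, Real.sin_pi, zero_smul, add_zero, neg_one_smul]

/-- The full turn. -/
theorem gam_pi (hu : Oct.norm u = 1) (hv : Oct.norm v = 1) (huv : bil u v = 0) :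
    gam u v Real.pi = cx (-1) (-1) 1 := by
  have h2 : lf2 u (wv u v Real.pi) = 1 := by
    ext1 x
    rw [lf2_wv hu hv huv, Real.sin_pi]
    simp
  rw [gam, lf0_wv hu, lf1_wv hu, h2, Real.cos_pi, Real.sin_pi, neg_one_smul, zero_smul,
    zero_smul, add_zero]

theorem cxo_sub (s t : OR →ₗ[ℝ] OR) : cxo (s - t) = cxo s - cxo t := ext_upo fun x => by
  rw [cxo_upo, LinearMap.sub_apply, LinearMap.sub_apply, cxo_upo, cxo_upo, sub_eq_add_neg,
    upo_add, upo_neg, ← sub_eq_add_neg]

/-- The one-parameter group in terms of fixed maps. -/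
theorem exists_gam (hu : Oct.norm u = 1) (hv : Oct.norm v = 1) (huv : bil u v = 0) (x : VC) :
    ∃ A B C D E : VC, ∀ t : ℝ, gam u v t x = A + (Real.cos t : ℂ) • B + (Real.sin t : ℂ) • C +
      ((Real.sin t * Real.cos t : ℝ) : ℂ) • D + ((Real.sin t ^ 2 : ℝ) : ℂ) • E := by
  obtain ⟨P, hP⟩ : ∃ P : OR →ₗ[ℝ] OR, ∀ x, P x = bil v x • u - bil u x • v :=
    ⟨{ toFun := fun x => bil v x • u - bil u x • v
       map_add' := fun x y => by
        rw [bil_add_right, bil_add_right, add_smul, add_smul]; abel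
       map_smul' := fun r x => by
        rw [bil_smul_right, bil_smul_right, mul_smul, mul_smul, ← smul_sub, RingHom.id_apply] },
      fun x => rfl⟩
  obtain ⟨Q, hQ⟩ : ∃ Q : OR →ₗ[ℝ] OR, ∀ x, Q x = -(bil u x • u) - bil v x • v :=
    ⟨{ toFun := fun x => -(bil u x • u) - bil v x • v
       map_add' := fun x y => by
        rw [bil_add_right, bil_add_right, add_smul, add_smul]; abel
       map_smul' := fun r x => by
        rw [bil_smul_right, bil_smul_right, mul_smul, mul_smul, smul_sub, smul_neg,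
          RingHom.id_apply] },
      fun x => rfl⟩
  have h2 : ∀ t, lf2 u (wv u v t) = 1 + (Real.sin t * Real.cos t) • P + Real.sin t ^ 2 • Q := by
    intro t
    ext1 y
    rw [lf2_wv hu hv huv, LinearMap.add_apply, LinearMap.add_apply, LinearMap.smul_apply,
      LinearMap.smul_apply, hP, hQ, Module.End.one_apply]
    module
  refine ⟨⟨x.d1, x.d2, x.d3, 0, 0, x.x3⟩, ⟨0, 0, 0, x.x1, x.x2, 0⟩,
    ⟨0, 0, 0, cxo (lf0 u v) x.x1, cxo (lf1 u v) x.x2, 0⟩, ⟨0, 0, 0, 0, 0, cxo P x.x3⟩,
    ⟨0, 0, 0, 0, 0, cxo Q x.x3⟩, fun t => ?_⟩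
  rw [gam, cx_apply, lf0_wv hu, lf1_wv hu, h2]
  simp only [cxo_add, cxo_smul, cxo_one]
  ext1 <;> simp only [d1_add, d2_add, d3_add, x1_add, x2_add, x3_add, d1_smul, d2_smul, d3_smul,
    x1_smul, x2_smul, x3_smul, mul_zero, smul_zero, add_zero, zero_add, LinearMap.add_apply,
    LinearMap.smul_apply, Module.End.one_apply]

theorem continuous_gam (hu : Oct.norm u = 1) (hv : Oct.norm v = 1) (huv : bil u v = 0)
    (x : VC) : Continuous fun t : ℝ => gam u v t x := by
  obtain ⟨A, B, C, D, E, h⟩ := exists_gam hu hv huv x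
  simp only [h]
  fun_prop

/-- The oriented plane is stable under the third component. -/
theorem lf_plane (hu : Oct.norm u = 1) (hv : Oct.norm v = 1) (huv : bil u v = 0) {p q : ℝ}
    (hpq : p ^ 2 + q ^ 2 = 1) (t : ℝ) :
    lf0 (p • u + q • v) (wv (p • u + q • v) (-q • u + p • v) t) = lf0 u (wv u v t) ∧
    lf1 (p • u + q • v) (wv (p • u + q • v) (-q • u + p • v) t) = lf1 u (wv u v t) ∧
    lf2 (p • u + q • v) (wv (p • u + q • v) (-q • u + p • v) t) = lf2 u (wv u v t) := by
  have hu' : Oct.norm (p • u + q • v) = 1 := by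
    rw [norm_add, Oct.norm_smul, Oct.norm_smul, bil_smul_left, bil_smul_right, hu, hv, huv]
    linear_combination hpq
  have hv' : Oct.norm (-q • u + p • v) = 1 := by
    rw [norm_add, Oct.norm_smul, Oct.norm_smul, bil_smul_left, bil_smul_right, hu, hv, huv]
    linear_combination hpq
  have huv' : bil (p • u + q • v) (-q • u + p • v) = 0 := by
    simp only [bil_add_left, bil_add_right, bil_smul_left, bil_smul_right, huv, bil_comm v u,
      bil_self, hu, hv]
    ring
  have a0 : ∀ x, star v * (u * x) = -(star u * (v * x)) := fun x => by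
    have := star_mul_mul_add u x v
    rw [huv, zero_smul] at this
    exact eq_neg_of_add_eq_zero_right this
  have a1 : ∀ x, (x * u) * star v = -((x * v) * star u) := fun x => by
    have := mul_mul_star_add u x v
    rw [huv, zero_smul] at this
    exact eq_neg_of_add_eq_zero_left this
  refine ⟨?_, ?_, ?_⟩
  · rw [lf0_wv hu, lf0_wv hu']
    congr 2
    ext1 x
    rw [lf0_apply, lf0_apply]
    simp only [star_add, star_smul_oct, add_mul, mul_add, smul_mul_oct, mul_smul_oct, a0,
      star_mul_mul, hu, hv, one_smul]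
    have e : star u * (v * x) = (p ^ 2 + q ^ 2) • (star u * (v * x)) := by rw [hpq, one_smul]
    conv_rhs => rw [e]
    module
  · rw [lf1_wv hu, lf1_wv hu']
    congr 2
    ext1 x
    rw [lf1_apply, lf1_apply]
    simp only [star_add, star_smul_oct, add_mul, mul_add, smul_mul_oct, mul_smul_oct, a1,
      Oct.mul_mul_star, hu, hv, one_smul]
    have e : (x * v) * star u = (p ^ 2 + q ^ 2) • ((x * v) * star u) := by rw [hpq, one_smul]
    conv_rhs => rw [e]
    module
  · ext1 x
    rw [lf2_wv hu' hv' huv', lf2_wv hu hv huv, bil_add_left, bil_add_left, bil_smul_left,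
      bil_smul_left, bil_smul_left, bil_smul_left]
    generalize Real.sin t = a
    generalize Real.cos t = b
    generalize bil u x = m
    generalize bil v x = n
    have e1 : (a * b * (-q * m + p * n) - a ^ 2 * (p * m + q * n)) * p +
        (a * b * (p * m + q * n) + a ^ 2 * (-q * m + p * n)) * q = a * b * n - a ^ 2 * m := by
      linear_combination (a * b * n - a ^ 2 * m) * hpq
    have e2 : (a * b * (p * m + q * n) + a ^ 2 * (-q * m + p * n)) * p -
        (a * b * (-q * m + p * n) - a ^ 2 * (p * m + q * n)) * q = a * b * m + a ^ 2 * n := by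
      linear_combination (a * b * m + a ^ 2 * n) * hpq
    rw [← e1, ← e2]
    module

/-- The one-parameter group commutes with the complexification of a related triple whose third
component rotates the plane. -/
theorem gam_comm {s₁ s₂ s₃ : OR →ₗ[ℝ] OR} (h : IsRel s₁ s₂ s₃) (hu : Oct.norm u = 1)
    (hv : Oct.norm v = 1) (huv : bil u v = 0) {p q : ℝ} (hpq : p ^ 2 + q ^ 2 = 1)
    (h1 : s₃ u = p • u + q • v) (h2 : s₃ v = -q • u + p • v) (t : ℝ) :
    cx s₁ s₂ s₃ * gam u v t = gam u v t * cx s₁ s₂ s₃ := by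
  have hw : s₃ (wv u v t) = wv (p • u + q • v) (-q • u + p • v) t := by
    rw [wv, map_add, map_smul, map_smul, h1, h2, wv]
  obtain ⟨e0, e1, e2⟩ := lf_plane hu hv huv hpq t
  rw [gam, ← cx_mul, ← cx_mul]
  congr 1
  · ext1 x
    rw [Module.End.mul_apply, rel_lf0 h hu, hw, h1, e0, Module.End.mul_apply]
  · ext1 x
    rw [Module.End.mul_apply, rel_lf1 h hu, hw, h1, e1, Module.End.mul_apply]
  · ext1 x
    rw [Module.End.mul_apply, rel_lf2 h hu (norm_wv hu hv huv t), hw, h1, e2,
      Module.End.mul_apply]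

end fam

end Vale.Agent.P011.H44.Rl
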