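import Vale.Agent.P011.H44.Rl.Real

/-!
The elements of the compact group of type `E₆` that fix the three idempotents are the
complexifications of related triples of the compact octonions.
-/

open Module

namespace Vale.Agent.P011.H44.Rl

open Vale.Agent.P011.MPQ Vale.Agent.P011.D4 Vale.Agent.P011.D4.Oct Vale.Agent.P011.E6
open Vale.Agent.P011.E6.Alb Vale.Agent.P011.H261.Rl
open scoped ComplexConjugate

/-- A related triple of the compact octonions. -/
structure IsRel (s₁ s₂ s₃ : OR →ₗ[ℝ] OR) : Prop where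
  n1 : ∀ x, Oct.norm (s₁ x) = Oct.norm x
  n2 : ∀ x, Oct.norm (s₂ x) = Oct.norm x
  n3 : ∀ x, Oct.norm (s₃ x) = Oct.norm x
  tri : ∀ x y z, bil (s₁ x * s₂ y * s₃ z) 1 = bil (x * y * z) 1

/-- The complexification of a triple of real linear maps. -/
noncomputable def cx (s₁ s₂ s₃ : OR →ₗ[ℝ] OR) : VC →ₗ[ℂ] VC where
  toFun x := ⟨x.d1, x.d2, x.d3, cxo s₁ x.x1, cxo s₂ x.x2, cxo s₃ x.x3⟩
  map_add' x y := by
    ext1 <;> simp only [d1_add, d2_add, d3_add, x1_add, x2_add, x3_add, map_add]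
  map_smul' t x := by
    ext1 <;> simp only [d1_smul, d2_smul, d3_smul, x1_smul, x2_smul, x3_smul, map_smul,
      RingHom.id_apply]

theorem cx_apply (s₁ s₂ s₃ : OR →ₗ[ℝ] OR) (x : VC) :
    cx s₁ s₂ s₃ x = ⟨x.d1, x.d2, x.d3, cxo s₁ x.x1, cxo s₂ x.x2, cxo s₃ x.x3⟩ := rfl

theorem cx_one : cx 1 1 1 = 1 := by
  ext1 x
  rw [cx_apply, cxo_one]
  rfl

theorem cx_mul (s₁ s₂ s₃ t₁ t₂ t₃ : OR →ₗ[ℝ] OR) :
    cx (s₁ * t₁) (s₂ * t₂) (s₃ * t₃) = cx s₁ s₂ s₃ * cx t₁ t₂ t₃ := by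
  ext1 x
  rw [cx_apply, cxo_mul, cxo_mul, cxo_mul]
  rfl

theorem bil_of_norm {F : Type} [Field F] {a b c : Fˣ} {f : Oct a b c →ₗ[F] Oct a b c}
    (h : ∀ x, Oct.norm (f x) = Oct.norm x) (x y : Oct a b c) : bil (f x) (f y) = bil x y := by
  rw [bil, bil, ← map_add, h, h, h]

theorem norm_cxo {s : OR →ₗ[ℝ] OR} (h : ∀ x, Oct.norm (s x) = Oct.norm x) (x : OC) :
    Oct.norm (cxo s x) = Oct.norm x := by
  conv_rhs => rw [← re_im_o x]
  rw [cxo_apply, norm_add, norm_add, Oct.norm_smul, Oct.norm_smul, bil_smul_right,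
    bil_smul_right, norm_upo, norm_upo, norm_upo, norm_upo, bil_upo, bil_upo, h, h,
    bil_of_norm h]

theorem tri_cxo {s₁ s₂ s₃ : OR →ₗ[ℝ] OR}
    (h : ∀ x y z, bil (s₁ x * s₂ y * s₃ z) 1 = bil (x * y * z) 1) (x y z : OC) :
    bil (cxo s₁ x * cxo s₂ y * cxo s₃ z) 1 = bil (x * y * z) 1 := by
  have h1 : ∀ x y z : OR, bil (cxo s₁ (upo x) * cxo s₂ (upo y) * cxo s₃ (upo z)) 1 =
      bil (upo x * upo y * upo z) 1 := fun x y z => by
    rw [cxo_upo, cxo_upo, cxo_upo, ← upo_mul, ← upo_mul, ← upo_mul, ← upo_mul, ← upo_one,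
      bil_upo, bil_upo, h]
  have h2 : ∀ (x : OC) (y z : OR), bil (cxo s₁ x * cxo s₂ (upo y) * cxo s₃ (upo z)) 1 =
      bil (x * upo y * upo z) 1 := fun x y z => by
    rw [← re_im_o x]
    simp only [map_add, map_smul, add_mul, smul_mul_oct, bil_add_left, bil_smul_left, h1]
  have h3 : ∀ (x y : OC) (z : OR), bil (cxo s₁ x * cxo s₂ y * cxo s₃ (upo z)) 1 =
      bil (x * y * upo z) 1 := fun x y z => by
    rw [← re_im_o y]
    simp only [map_add, map_smul, add_mul, mul_add, smul_mul_oct, mul_smul_oct, bil_add_left,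
      bil_smul_left, h2]
  rw [← re_im_o z]
  simp only [map_add, map_smul, mul_add, mul_smul_oct, bil_add_left, bil_smul_left, h3]

theorem cub_cx {s₁ s₂ s₃ : OR →ₗ[ℝ] OR} (h : IsRel s₁ s₂ s₃) (x : VC) :
    cub (cx s₁ s₂ s₃ x) = cub x := by
  rw [cx_apply, cub, cub]
  simp only [norm_cxo h.n1, norm_cxo h.n2, norm_cxo h.n3, tri_cxo h.tri]

theorem inner_cx {s₁ s₂ s₃ : OR →ₗ[ℝ] OR} (h : IsRel s₁ s₂ s₃) (x y : VC) :
    inner ℂ (cx s₁ s₂ s₃ x) (cx s₁ s₂ s₃ y) = inner ℂ x y := by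
  rw [inner_eq_tf, inner_eq_tf, cx_apply, cx_apply, tf, tf]
  simp only [cj, ← cxo_cjo, bil_of_norm (norm_cxo h.n1), bil_of_norm (norm_cxo h.n2),
    bil_of_norm (norm_cxo h.n3)]

/-- The octonions as entries at `(3,1)`. -/
noncomputable def in2 : OC →ₗ[ℂ] VC where
  toFun x := ⟨0, 0, 0, 0, x, 0⟩
  map_add' x y := by ext1 <;> simp
  map_smul' s x := by ext1 <;> simp

/-- The octonions as entries at `(1,2)`. -/
noncomputable def in3 : OC →ₗ[ℂ] VC where
  toFun x := ⟨0, 0, 0, 0, 0, x⟩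
  map_add' x y := by ext1 <;> simp
  map_smul' s x := by ext1 <;> simp

theorem in1_apply (x : OC) : in1 x = ⟨0, 0, 0, x, 0, 0⟩ := rfl
theorem in2_apply (x : OC) : in2 x = ⟨0, 0, 0, 0, x, 0⟩ := rfl
theorem in3_apply (x : OC) : in3 x = ⟨0, 0, 0, 0, 0, x⟩ := rfl

theorem cjo_zero : cjo (0 : OC) = 0 := by
  have h := cjo_smul 0 (0 : OC)
  rwa [zero_smul, map_zero, zero_smul] at h

theorem cj_in1 (x : OC) : cj (in1 x) = in1 (cjo x) := by
  rw [in1_apply, in1_apply]; ext1 <;> simp [cj, cjo_zero]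
theorem cj_in2 (x : OC) : cj (in2 x) = in2 (cjo x) := by
  rw [in2_apply, in2_apply]; ext1 <;> simp [cj, cjo_zero]
theorem cj_in3 (x : OC) : cj (in3 x) = in3 (cjo x) := by
  rw [in3_apply, in3_apply]; ext1 <;> simp [cj, cjo_zero]

theorem cross_e2 (y : VC) : cross e2 y = ⟨y.d3, 0, y.d1, 0, -y.x2, 0⟩ := by
  ext1 <;> simp [cross, e2, bil]

theorem cross_e3 (y : VC) : cross e3 y = ⟨y.d2, y.d1, 0, 0, 0, -y.x3⟩ := by
  ext1 <;> simp [cross, e3, bil]

theorem decomp (x : VC) : x = x.d1 • e1 + x.d2 • e2 + x.d3 • e3 + in1 x.x1 + in2 x.x2 +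
    in3 x.x3 := by
  rw [in1_apply, in2_apply, in3_apply]
  ext1 <;> simp [e1, e2, e3]

section fix

variable {k : VC →ₗ[ℂ] VC} (hN : ∀ x, cub (k x) = cub x)
  (hU : ∀ x y, inner ℂ (k x) (k y) = inner ℂ x y)
include hN hU

theorem cross_fix {e : VC} (he : k e = e) (y : VC) : cross e (k y) = cj (k (cj (cross e y))) := by
  have := cross_of_isE hN hU e y
  rwa [he] at this

theorem fix_in1 (h1 : k e1 = e1) (h2 : k e2 = e2) (h3 : k e3 = e3) (u : OC) :
    k (in1 u) = in1 (k (in1 u)).x1 ∧ (k (in1 (cjo u))).x1 = cjo (k (in1 u)).x1 := by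
  have c1 := fun y => cross_fix hN hU h1 y
  have c2 := fun y => cross_fix hN hU h2 y
  have c3 := fun y => cross_fix hN hU h3 y
  have e2' : cross e2 (in1 u) = 0 := by rw [cross_e2]; ext1 <;> simp [in1_apply]
  have e3' : cross e3 (in1 u) = 0 := by rw [cross_e3]; ext1 <;> simp [in1_apply]
  have e1' : ∀ u : OC, cross e1 (in1 u) = -in1 u := fun u => by
    rw [cross_e1]; ext1 <;> simp [in1_apply]
  have f2 := c2 (in1 u)
  rw [e2', cj_zero, map_zero, cj_zero, cross_e2] at f2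
  have f3 := c3 (in1 u)
  rw [e3', cj_zero, map_zero, cj_zero, cross_e3] at f3
  have f1 := fun u => c1 (in1 u)
  have g1 : (k (in1 u)).d1 = 0 := congrArg Alb.d3 f2
  have g2 : (k (in1 u)).d2 = 0 := congrArg Alb.d1 f3
  have g3 : (k (in1 u)).d3 = 0 := congrArg Alb.d1 f2
  have g5 : (k (in1 u)).x2 = 0 := neg_eq_zero.1 (congrArg Alb.x2 f2)
  have g6 : (k (in1 u)).x3 = 0 := neg_eq_zero.1 (congrArg Alb.x3 f3)
  refine ⟨?_, ?_⟩
  · rw [in1_apply (k (in1 u)).x1]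
    ext1 <;> simp [g1, g2, g3, g5, g6]
  · have f4 := f1 u
    rw [e1', cross_e1, ← neg_one_smul ℂ (in1 u), cj_smul, cj_in1, map_smul, cj_smul] at f4
    have f5 := congrArg Alb.x1 f4
    simp only [map_neg, map_one, neg_smul, one_smul, x1_neg, neg_inj] at f5
    rw [f5]
    simp only [cj, cjo_cjo]

theorem fix_in2 (h1 : k e1 = e1) (h2 : k e2 = e2) (h3 : k e3 = e3) (u : OC) :
    k (in2 u) = in2 (k (in2 u)).x2 ∧ (k (in2 (cjo u))).x2 = cjo (k (in2 u)).x2 := by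
  have c1 := fun y => cross_fix hN hU h1 y
  have c2 := fun y => cross_fix hN hU h2 y
  have c3 := fun y => cross_fix hN hU h3 y
  have e1' : cross e1 (in2 u) = 0 := by rw [cross_e1]; ext1 <;> simp [in2_apply]
  have e3' : cross e3 (in2 u) = 0 := by rw [cross_e3]; ext1 <;> simp [in2_apply]
  have e2' : ∀ u : OC, cross e2 (in2 u) = -in2 u := fun u => by
    rw [cross_e2]; ext1 <;> simp [in2_apply]
  have f1 := c1 (in2 u)
  rw [e1', cj_zero, map_zero, cj_zero, cross_e1] at f1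
  have f3 := c3 (in2 u)
  rw [e3', cj_zero, map_zero, cj_zero, cross_e3] at f3
  have f2 := fun u => c2 (in2 u)
  have g1 : (k (in2 u)).d1 = 0 := congrArg Alb.d2 f3
  have g2 : (k (in2 u)).d2 = 0 := congrArg Alb.d1 f3
  have g3 : (k (in2 u)).d3 = 0 := congrArg Alb.d2 f1
  have g5 : (k (in2 u)).x1 = 0 := neg_eq_zero.1 (congrArg Alb.x1 f1)
  have g6 : (k (in2 u)).x3 = 0 := neg_eq_zero.1 (congrArg Alb.x3 f3)
  refine ⟨?_, ?_⟩
  · rw [in2_apply (k (in2 u)).x2]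
    ext1 <;> simp [g1, g2, g3, g5, g6]
  · have f4 := f2 u
    rw [e2', cross_e2, ← neg_one_smul ℂ (in2 u), cj_smul, cj_in2, map_smul, cj_smul] at f4
    have f5 := congrArg Alb.x2 f4
    simp only [map_neg, map_one, neg_smul, one_smul, x2_neg, neg_inj] at f5
    rw [f5]
    simp only [cj, cjo_cjo]

theorem fix_in3 (h1 : k e1 = e1) (h2 : k e2 = e2) (h3 : k e3 = e3) (u : OC) :
    k (in3 u) = in3 (k (in3 u)).x3 ∧ (k (in3 (cjo u))).x3 = cjo (k (in3 u)).x3 := by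
  have c1 := fun y => cross_fix hN hU h1 y
  have c2 := fun y => cross_fix hN hU h2 y
  have c3 := fun y => cross_fix hN hU h3 y
  have e1' : cross e1 (in3 u) = 0 := by rw [cross_e1]; ext1 <;> simp [in3_apply]
  have e2' : cross e2 (in3 u) = 0 := by rw [cross_e2]; ext1 <;> simp [in3_apply]
  have e3' : ∀ u : OC, cross e3 (in3 u) = -in3 u := fun u => by
    rw [cross_e3]; ext1 <;> simp [in3_apply]
  have f1 := c1 (in3 u)
  rw [e1', cj_zero, map_zero, cj_zero, cross_e1] at f1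
  have f2 := c2 (in3 u)
  rw [e2', cj_zero, map_zero, cj_zero, cross_e2] at f2
  have f3 := fun u => c3 (in3 u)
  have g1 : (k (in3 u)).d1 = 0 := congrArg Alb.d3 f2
  have g2 : (k (in3 u)).d2 = 0 := congrArg Alb.d3 f1
  have g3 : (k (in3 u)).d3 = 0 := congrArg Alb.d1 f2
  have g5 : (k (in3 u)).x1 = 0 := neg_eq_zero.1 (congrArg Alb.x1 f1)
  have g6 : (k (in3 u)).x2 = 0 := neg_eq_zero.1 (congrArg Alb.x2 f2)
  refine ⟨?_, ?_⟩
  · rw [in3_apply (k (in3 u)).x3]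
    ext1 <;> simp [g1, g2, g3, g5, g6]
  · have f4 := f3 u
    rw [e3', cross_e3, ← neg_one_smul ℂ (in3 u), cj_smul, cj_in3, map_smul, cj_smul] at f4
    have f5 := congrArg Alb.x3 f4
    simp only [map_neg, map_one, neg_smul, one_smul, x3_neg, neg_inj] at f5
    rw [f5]
    simp only [cj, cjo_cjo]

end fix

/-- The real form of a complex linear map that commutes with the conjugation. -/
noncomputable def rlo (f : OC →ₗ[ℂ] OC) (hf : ∀ x, f (cjo x) = cjo (f x)) : OR →ₗ[ℝ] OR where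
  toFun x := reo (f (upo x))
  map_add' x y := by rw [upo_add, map_add, reo_add]
  map_smul' r x := by
    have h : imo (f (upo x)) = 0 := by
      have h1 : upo (reo (f (upo x))) = f (upo x) := eq_upo_of_cjo (by rw [← hf, cjo_upo])
      rw [← h1, imo_upo]
    rw [upo_smul, map_smul, reo_smul, h, smul_zero, sub_zero, Complex.ofReal_re,
      RingHom.id_apply]

theorem upo_rlo (f : OC →ₗ[ℂ] OC) (hf : ∀ x, f (cjo x) = cjo (f x)) (x : OR) :
    upo (rlo f hf x) = f (upo x) := eq_upo_of_cjo (by rw [← hf, cjo_upo])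

theorem cxo_rlo (f : OC →ₗ[ℂ] OC) (hf : ∀ x, f (cjo x) = cjo (f x)) : cxo (rlo f hf) = f :=
  ext_upo fun x => by rw [cxo_upo, upo_rlo]

/-- The entry at `(2,3)`, as a linear map. -/
noncomputable def pr1 : VC →ₗ[ℂ] OC where
  toFun x := x.x1
  map_add' _ _ := rfl
  map_smul' _ _ := rfl

/-- The entry at `(3,1)`, as a linear map. -/
noncomputable def pr2 : VC →ₗ[ℂ] OC where
  toFun x := x.x2
  map_add' _ _ := rfl
  map_smul' _ _ := rfl

/-- The entry at `(1,2)`, as a linear map. -/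
noncomputable def pr3 : VC →ₗ[ℂ] OC where
  toFun x := x.x3
  map_add' _ _ := rfl
  map_smul' _ _ := rfl

/-- **The elements of the compact group of type `E₆` that fix the three idempotents are the
complexifications of the related triples of the compact octonions.** -/
theorem exists_cx {k : VC →ₗ[ℂ] VC} (hN : ∀ x, cub (k x) = cub x)
    (hU : ∀ x y, inner ℂ (k x) (k y) = inner ℂ x y) (h1 : k e1 = e1) (h2 : k e2 = e2)
    (h3 : k e3 = e3) : ∃ s₁ s₂ s₃ : OR →ₗ[ℝ] OR, IsRel s₁ s₂ s₃ ∧ k = cx s₁ s₂ s₃ := by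
  have a1 := fun u => fix_in1 hN hU h1 h2 h3 u
  have a2 := fun u => fix_in2 hN hU h1 h2 h3 u
  have a3 := fun u => fix_in3 hN hU h1 h2 h3 u
  set f₁ : OC →ₗ[ℂ] OC := pr1 ∘ₗ k ∘ₗ in1 with hf₁
  set f₂ : OC →ₗ[ℂ] OC := pr2 ∘ₗ k ∘ₗ in2 with hf₂
  set f₃ : OC →ₗ[ℂ] OC := pr3 ∘ₗ k ∘ₗ in3 with hf₃
  have b1 : ∀ u, k (in1 u) = in1 (f₁ u) := fun u => (a1 u).1
  have b2 : ∀ u, k (in2 u) = in2 (f₂ u) := fun u => (a2 u).1
  have b3 : ∀ u, k (in3 u) = in3 (f₃ u) := fun u => (a3 u).1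
  have c1 : ∀ u, f₁ (cjo u) = cjo (f₁ u) := fun u => (a1 u).2
  have c2 : ∀ u, f₂ (cjo u) = cjo (f₂ u) := fun u => (a2 u).2
  have c3 : ∀ u, f₃ (cjo u) = cjo (f₃ u) := fun u => (a3 u).2
  have hk : k = cx (rlo f₁ c1) (rlo f₂ c2) (rlo f₃ c3) := by
    ext1 x
    rw [cx_apply, cxo_rlo, cxo_rlo, cxo_rlo]
    conv_lhs => rw [decomp x]
    rw [map_add, map_add, map_add, map_add, map_add, map_smul, map_smul, map_smul, h1, h2, h3,
      b1, b2, b3, in1_apply, in2_apply, in3_apply]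
    ext1 <;> simp [e1, e2, e3]
  have n1 : ∀ u, Oct.norm (f₁ u) = Oct.norm u := fun u => by
    have h4 := hN (e1 + in1 u)
    rw [map_add, h1, b1, in1_apply, in1_apply] at h4
    simpa [cub, e1, bil] using h4
  have n2 : ∀ u, Oct.norm (f₂ u) = Oct.norm u := fun u => by
    have h4 := hN (e2 + in2 u)
    rw [map_add, h2, b2, in2_apply, in2_apply] at h4
    simpa [cub, e2, bil] using h4
  have n3 : ∀ u, Oct.norm (f₃ u) = Oct.norm u := fun u => by
    have h4 := hN (e3 + in3 u)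
    rw [map_add, h3, b3, in3_apply, in3_apply] at h4
    simpa [cub, e3, bil] using h4
  have tr : ∀ u v w, bil (f₁ u * f₂ v * f₃ w) 1 = bil (u * v * w) 1 := fun u v w => by
    have h4 := hN (in1 u + in2 v + in3 w)
    rw [map_add, map_add, b1, b2, b3, in1_apply, in2_apply, in3_apply, in1_apply, in2_apply,
      in3_apply] at h4
    simpa [cub] using h4
  refine ⟨_, _, _, ⟨fun x => ?_, fun x => ?_, fun x => ?_, fun x y z => ?_⟩, hk⟩
  · exact Complex.ofReal_injective (by rw [← norm_upo, upo_rlo, n1, norm_upo])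
  · exact Complex.ofReal_injective (by rw [← norm_upo, upo_rlo, n2, norm_upo])
  · exact Complex.ofReal_injective (by rw [← norm_upo, upo_rlo, n3, norm_upo])
  · refine Complex.ofReal_injective ?_
    rw [← bil_upo, ← bil_upo, upo_mul, upo_mul, upo_mul, upo_mul, upo_rlo, upo_rlo, upo_rlo,
      upo_one, tr]

theorem cxo_left (u w : OR) {s : OR →ₗ[ℝ] OR} (h : ∀ x, s x = star u * (w * x)) (x : OC) :
    cxo s x = star (upo u) * (upo w * x) := by
  rw [cxo_apply, h, h, upo_mul, upo_mul, upo_mul, upo_mul, upo_star]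
  conv_rhs => rw [← re_im_o x]
  rw [mul_add, mul_add, mul_smul_oct, mul_smul_oct]

theorem cxo_right (u w : OR) {s : OR →ₗ[ℝ] OR} (h : ∀ x, s x = (x * w) * star u) (x : OC) :
    cxo s x = (x * upo w) * star (upo u) := by
  rw [cxo_apply, h, h, upo_mul, upo_mul, upo_mul, upo_mul, upo_star]
  conv_rhs => rw [← re_im_o x]
  rw [add_mul, add_mul, smul_mul_oct, smul_mul_oct]

theorem cxo_mid (u w : OR) {s : OR →ₗ[ℝ] OR} (h : ∀ x, s x = u * (star w * x * star w) * u)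
    (x : OC) : cxo s x = upo u * (star (upo w) * x * star (upo w)) * upo u := by
  rw [cxo_apply, h, h]
  simp only [upo_mul, upo_star]
  conv_rhs => rw [← re_im_o x]
  simp only [mul_add, add_mul, mul_smul_oct, smul_mul_oct]

end Vale.Agent.P011.H44.Rl
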