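import Mathlib.Analysis.InnerProductSpace.Basic
import Mathlib.Analysis.Complex.Polynomial.Basic
import Mathlib.LinearAlgebra.Eigenspace.Triangularizable
import Mathlib.LinearAlgebra.FiniteDimensional.Lemmas
import Mathlib.RingTheory.RootsOfUnity.Basic

/-!
Common eigenvectors on which a form vanishes.
-/

open Module

namespace Vale.Agent.P011.H44.Rl

variable {V : Type*} [NormedAddCommGroup V] [InnerProductSpace ℂ V] [FiniteDimensional ℂ V]

omit [FiniteDimensional ℂ V] in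
/-- The generalized eigenvectors of a unitary operator are eigenvectors. -/
theorem eig_of_sq {k : V →ₗ[ℂ] V} (hk : ∀ x y, inner ℂ (k x) (k y) = inner ℂ x y) {l : ℂ} {v : V}
    (h : (k - algebraMap ℂ (End ℂ V) l) ((k - algebraMap ℂ (End ℂ V) l) v) = 0) :
    (k - algebraMap ℂ (End ℂ V) l) v = 0 := by
  set w := (k - algebraMap ℂ (End ℂ V) l) v with hw
  have h1 : k w = l • w := by
    have : k w - l • w = 0 := h
    exact sub_eq_zero.1 this
  have h2 : k v = w + l • v := by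
    have : w = k v - l • v := hw
    rw [this]; abel
  by_contra hne
  have hl : (starRingEnd ℂ) l * l = 1 := by
    have h3 := hk w w
    rw [h1, inner_smul_left, inner_smul_right, ← mul_assoc] at h3
    have h4 : inner ℂ w w ≠ 0 := inner_self_ne_zero.2 hne
    exact mul_right_cancel₀ h4 (by rw [h3, one_mul])
  have h3 := hk v w
  rw [h1, h2, inner_smul_right, inner_add_left, inner_smul_left, mul_add, ← mul_assoc,
    mul_comm l ((starRingEnd ℂ) l), hl, one_mul] at h3
  have h5 : l * inner ℂ w w = 0 := by simpa using h3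
  rcases mul_eq_zero.1 h5 with h6 | h6
  · rw [h6] at hl; simp at hl
  · exact hne (inner_self_eq_zero.1 h6)

theorem iSup_eig {k : V →ₗ[ℂ] V} (hk : ∀ x y, inner ℂ (k x) (k y) = inner ℂ x y) :
    ⨆ l : ℂ, Module.End.eigenspace k l = ⊤ := by
  rw [eq_top_iff, ← Module.End.iSup_maxGenEigenspace_eq_top k]
  refine iSup_mono fun l v hv => ?_
  rw [Module.End.mem_maxGenEigenspace] at hv
  obtain ⟨n, hn⟩ := hv
  rw [Module.End.mem_eigenspace_iff]
  suffices h : (k - algebraMap ℂ (End ℂ V) l) v = 0 by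
    have : k v - l • v = 0 := h
    exact sub_eq_zero.1 this
  have hn' : ((k - algebraMap ℂ (End ℂ V) l) ^ n) v = 0 := hn
  clear hn
  induction n with
  | zero => simp only [pow_zero, Module.End.one_apply] at hn'; rw [hn', map_zero]
  | succ n ih =>
    rcases n with _ | n
    · simpa using hn'
    · apply ih
      rw [pow_succ', Module.End.mul_apply]
      rw [pow_succ', Module.End.mul_apply, pow_succ', Module.End.mul_apply] at hn'
      exact eig_of_sq hk hn'

/-- A unitary operator on a space of dimension greater than `S.card` has an eigenvector with the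
property `Z`, if every plane contains a vector with the property `Z` and the eigenvalue of an
eigenvector without the property `Z` belongs to `S`. -/
theorem exists_eig {k : V →ₗ[ℂ] V} (hk : ∀ x y, inner ℂ (k x) (k y) = inner ℂ x y) (Z : V → Prop)
    (hZ : ∀ x y, Z x ∨ ∃ s : ℂ, Z (y + s • x)) (S : Finset ℂ) (hS : S.card < finrank ℂ V)
    (h : ∀ (l : ℂ) (v : V), v ≠ 0 → k v = l • v → ¬ Z v → l ∈ S) :
    ∃ v, v ≠ 0 ∧ Z v ∧ ∃ l : ℂ, k v = l • v := by
  classical
  by_contra hno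
  have hno' : ∀ v l, v ≠ 0 → k v = l • v → ¬ Z v := fun v l h0 hv hz => hno ⟨v, h0, hz, l, hv⟩
  have hdim : ∀ l : ℂ, ∃ w : V, Module.End.eigenspace k l ≤ ℂ ∙ w := by
    intro l
    by_cases hb : Module.End.eigenspace k l = ⊥
    · exact ⟨0, by rw [hb]; exact bot_le⟩
    obtain ⟨x, hx, hx0⟩ := Submodule.exists_mem_ne_zero_of_ne_bot hb
    refine ⟨x, fun y hy => ?_⟩
    rw [Module.End.mem_eigenspace_iff] at hx hy
    rcases hZ x y with hz | ⟨s, hz⟩
    · exact absurd hz (hno' x l hx0 hx)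
    · have h0 : y + s • x = 0 := by
        by_contra hne
        refine hno' _ l hne ?_ hz
        rw [map_add, map_smul, hx, hy, smul_add, smul_comm]
      rw [Submodule.mem_span_singleton]
      refine ⟨-s, ?_⟩
      rw [neg_smul]
      exact (eq_neg_of_add_eq_zero_left h0).symm
  choose w hw using hdim
  have htop : (⊤ : Submodule ℂ V) ≤ Submodule.span ℂ (S.image w : Set V) := by
    rw [← iSup_eig hk, iSup_le_iff]
    intro l
    by_cases hl : l ∈ S
    · refine (hw l).trans (Submodule.span_mono ?_)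
      intro x hx
      rw [Set.mem_singleton_iff] at hx
      rw [hx, Finset.mem_coe]
      exact Finset.mem_image_of_mem w hl
    · intro v hv
      rw [Module.End.mem_eigenspace_iff] at hv
      by_cases h0 : v = 0
      · rw [h0]; exact Submodule.zero_mem _
      · exact absurd (h l v h0 hv (hno' v l h0 hv)) hl
  have h1 : finrank ℂ V ≤ S.card := by
    rw [← finrank_top ℂ V]
    calc finrank ℂ (⊤ : Submodule ℂ V)
        ≤ finrank ℂ (Submodule.span ℂ (S.image w : Set V)) := Submodule.finrank_mono htop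
      _ ≤ (S.image w).card := finrank_span_finset_le_card _
      _ ≤ S.card := Finset.card_image_le
  omega

/-- The same for a commuting involution. -/
theorem exists_eig2 {k J : V →ₗ[ℂ] V} (hk : ∀ x y, inner ℂ (k x) (k y) = inner ℂ x y)
    (hJ : ∀ x, J (J x) = x) (hkJ : ∀ x, k (J x) = J (k x)) (Z : V → Prop)
    (hZ : ∀ x y, Z x ∨ ∃ s : ℂ, Z (y + s • x)) (S S' : Finset ℂ)
    (hS : S.card + S'.card < finrank ℂ V)
    (h : ∀ (l : ℂ) (v : V), v ≠ 0 → k v = l • v → J v = v → ¬ Z v → l ∈ S)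
    (h' : ∀ (l : ℂ) (v : V), v ≠ 0 → k v = l • v → J v = -v → ¬ Z v → l ∈ S') :
    ∃ v, v ≠ 0 ∧ Z v ∧ (∃ l : ℂ, k v = l • v) ∧ (J v = v ∨ J v = -v) := by
  set P : Submodule ℂ V := LinearMap.ker (J - 1) with hP
  set M : Submodule ℂ V := LinearMap.ker (J + 1) with hM
  have mP : ∀ x, x ∈ P ↔ J x = x := fun x => by
    rw [hP, LinearMap.mem_ker, LinearMap.sub_apply, Module.End.one_apply, sub_eq_zero]
  have mM : ∀ x, x ∈ M ↔ J x = -x := fun x => by
    rw [hM, LinearMap.mem_ker, LinearMap.add_apply, Module.End.one_apply, add_eq_zero_iff_eq_neg]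
  have hsup : (⊤ : Submodule ℂ V) ≤ P ⊔ M := by
    intro x _
    have e : x = (1 / 2 : ℂ) • (x + J x) + (1 / 2 : ℂ) • (x - J x) := by
      rw [← smul_add, add_add_sub_cancel, ← two_smul ℂ x, smul_smul]; norm_num
    rw [e]
    refine Submodule.add_mem_sup (P.smul_mem _ ?_) (M.smul_mem _ ?_)
    · rw [mP, map_add, hJ, add_comm]
    · rw [mM, map_sub, hJ]; abel
  have hdim : finrank ℂ V ≤ finrank ℂ P + finrank ℂ M := by
    rw [← finrank_top ℂ V]
    exact (Submodule.finrank_mono hsup).trans (Submodule.finrank_add_le_finrank_add_finrank P M)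
  have hor : S.card < finrank ℂ P ∨ S'.card < finrank ℂ M := by omega
  rcases hor with hc | hc
  · have hst : ∀ x ∈ P, k x ∈ P := fun x hx => by
      rw [mP] at hx ⊢
      rw [← hkJ, hx]
    obtain ⟨v, hv0, hz, l, hl⟩ := exists_eig (V := P) (k := k.restrict hst)
      (fun x y => hk x y) (fun x => Z x) (fun x y => hZ x y) S hc (fun l v h0 hv hz =>
        h l v (fun h1 => h0 (Subtype.ext h1)) (by
          have := congrArg Subtype.val hv
          simpa using this) ((mP _).1 v.2) hz)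
    refine ⟨v, fun h1 => hv0 (Subtype.ext h1), hz, ⟨l, ?_⟩, Or.inl ((mP _).1 v.2)⟩
    have := congrArg Subtype.val hl
    simpa using this
  · have hst : ∀ x ∈ M, k x ∈ M := fun x hx => by
      rw [mM] at hx ⊢
      rw [← hkJ, hx, map_neg]
    obtain ⟨v, hv0, hz, l, hl⟩ := exists_eig (V := M) (k := k.restrict hst)
      (fun x y => hk x y) (fun x => Z x) (fun x y => hZ x y) S' hc (fun l v h0 hv hz =>
        h' l v (fun h1 => h0 (Subtype.ext h1)) (by
          have := congrArg Subtype.val hv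
          simpa using this) ((mM _).1 v.2) hz)
    refine ⟨v, fun h1 => hv0 (Subtype.ext h1), hz, ⟨l, ?_⟩, Or.inr ((mM _).1 v.2)⟩
    have := congrArg Subtype.val hl
    simpa using this

/-- A complex polynomial of degree three has a root. -/
theorem exists_root3 {c₃ c₂ c₁ c₀ : ℂ} (h : c₃ ≠ 0) :
    ∃ s : ℂ, c₃ * s ^ 3 + c₂ * s ^ 2 + c₁ * s + c₀ = 0 := by
  obtain ⟨s, hs⟩ := IsAlgClosed.exists_root
    (Polynomial.C c₃ * Polynomial.X ^ 3 + Polynomial.C c₂ * Polynomial.X ^ 2 +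
      Polynomial.C c₁ * Polynomial.X + Polynomial.C c₀) (by
        rw [Polynomial.degree_cubic h]; decide)
  exact ⟨s, by simpa [Polynomial.IsRoot] using hs⟩

/-- A complex polynomial of degree two has a root. -/
theorem exists_root2 {c₂ c₁ c₀ : ℂ} (h : c₂ ≠ 0) : ∃ s : ℂ, c₂ * s ^ 2 + c₁ * s + c₀ = 0 := by
  obtain ⟨s, hs⟩ := IsAlgClosed.exists_root
    (Polynomial.C c₂ * Polynomial.X ^ 2 + Polynomial.C c₁ * Polynomial.X + Polynomial.C c₀) (by
        rw [Polynomial.degree_quadratic h]; decide)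
  exact ⟨s, by simpa [Polynomial.IsRoot] using hs⟩

/-- **A common eigenvector of rank one.** `N` is a cubic form and `q` the conjugate of the adjoint
map of `N`. -/
theorem exists_rank_one (hd : 3 < finrank ℂ V) {N : V → ℂ} {q : V → V}
    (hN : ∀ x y, ∃ A B : ℂ, ∀ s : ℂ, N (y + s • x) = N x * s ^ 3 + A * s ^ 2 + B * s + N y)
    (hNs : ∀ (s : ℂ) x, N (s • x) = s ^ 3 * N x)
    (hqs : ∀ (s : ℂ) x, ∃ u : ℂ, q (s • x) = u • q x) (hqq : ∀ x, N x = 0 → q (q x) = 0)
    {k J : V →ₗ[ℂ] V} (hk : ∀ x y, inner ℂ (k x) (k y) = inner ℂ x y) (hJ : ∀ x, J (J x) = x)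
    (hkJ : ∀ x, k (J x) = J (k x)) (hNk : ∀ x, N (k x) = N x) (hNJ : ∀ x, N (J x) = N x)
    (hqk : ∀ x, q (k x) = k (q x)) (hqJ : ∀ x, q (J x) = J (q x)) :
    ∃ x, x ≠ 0 ∧ q x = 0 ∧ (∃ l : ℂ, k x = l • x) ∧ ∃ m : ℂ, J x = m • x := by
  have hZ : ∀ x y, N x = 0 ∨ ∃ s : ℂ, N (y + s • x) = 0 := by
    intro x y
    by_cases h0 : N x = 0
    · exact Or.inl h0
    obtain ⟨A, B, h⟩ := hN x y
    obtain ⟨s, hs⟩ := exists_root3 (c₂ := A) (c₁ := B) (c₀ := N y) h0
    exact Or.inr ⟨s, by rw [h, hs]⟩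
  have hS : (Polynomial.nthRootsFinset 3 (1 : ℂ)).card + (∅ : Finset ℂ).card < finrank ℂ V := by
    have : (Polynomial.nthRootsFinset 3 (1 : ℂ)).card ≤ 3 := by
      unfold Polynomial.nthRootsFinset
      exact (Multiset.toFinset_card_le _).trans (Polynomial.card_nthRoots 3 1)
    simp only [Finset.card_empty]
    omega
  obtain ⟨v, hv0, hNv, ⟨l, hl⟩, hJv⟩ := exists_eig2 hk hJ hkJ (fun x => N x = 0) hZ _ ∅ hS
    (fun l v h0 hv hJv hz => by
      have h1 := hNk v
      rw [hv, hNs] at h1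
      rw [Polynomial.mem_nthRootsFinset (by norm_num)]
      exact mul_right_cancel₀ hz (by rw [h1, one_mul]))
    (fun l v h0 hv hJv hz => by
      exfalso
      have h1 := hNJ v
      have e : -v = (-1 : ℂ) • v := by simp
      rw [hJv, e, hNs] at h1
      apply hz
      have h2 : (2 : ℂ) * N v = 0 := by linear_combination -h1
      simpa using h2)
  have hm : ∃ m : ℂ, J v = m • v := by
    rcases hJv with h | h
    · exact ⟨1, by rw [h, one_smul]⟩
    · exact ⟨-1, by rw [h]; simp⟩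
  obtain ⟨m, hm⟩ := hm
  by_cases hq : q v = 0
  · exact ⟨v, hv0, hq, ⟨l, hl⟩, m, hm⟩
  · refine ⟨q v, hq, hqq v hNv, ?_, ?_⟩
    · obtain ⟨u, hu⟩ := hqs l v
      exact ⟨u, by rw [← hqk, hl, hu]⟩
    · obtain ⟨u, hu⟩ := hqs m v
      exact ⟨u, by rw [← hqJ, hm, hu]⟩

/-- **A common isotropic eigenvector** of similitudes of a quadratic form `Q`. -/
theorem exists_isotropic (hd : 4 < finrank ℂ V) {Q : V → ℂ}
    (hQ : ∀ x y, ∃ A : ℂ, ∀ s : ℂ, Q (y + s • x) = Q x * s ^ 2 + A * s + Q y)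
    (hQs : ∀ (s : ℂ) x, Q (s • x) = s ^ 2 * Q x)
    {k J : V →ₗ[ℂ] V} (hk : ∀ x y, inner ℂ (k x) (k y) = inner ℂ x y) (hJ : ∀ x, J (J x) = x)
    (hkJ : ∀ x, k (J x) = J (k x)) {l₀ : ℂ} (hQk : ∀ x, Q (k x) = l₀ * Q x) :
    ∃ x, x ≠ 0 ∧ Q x = 0 ∧ (∃ l : ℂ, k x = l • x) ∧ ∃ m : ℂ, J x = m • x := by
  have hZ : ∀ x y, Q x = 0 ∨ ∃ s : ℂ, Q (y + s • x) = 0 := by
    intro x y
    by_cases h0 : Q x = 0
    · exact Or.inl h0
    obtain ⟨A, h⟩ := hQ x y
    obtain ⟨s, hs⟩ := exists_root2 (c₁ := A) (c₀ := Q y) h0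
    exact Or.inr ⟨s, by rw [h, hs]⟩
  have hc : (Polynomial.nthRoots 2 l₀).toFinset.card ≤ 2 :=
    (Multiset.toFinset_card_le _).trans (Polynomial.card_nthRoots 2 l₀)
  have hin : ∀ (l : ℂ) (v : V), v ≠ 0 → k v = l • v → ¬ Q v = 0 →
      l ∈ (Polynomial.nthRoots 2 l₀).toFinset := fun l v h0 hv hz => by
    have h1 := hQk v
    rw [hv, hQs] at h1
    rw [Multiset.mem_toFinset, Polynomial.mem_nthRoots (by norm_num)]
    exact mul_right_cancel₀ hz h1
  obtain ⟨v, hv0, hQv, ⟨l, hl⟩, hJv⟩ := exists_eig2 hk hJ hkJ (fun x => Q x = 0) hZ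
    (Polynomial.nthRoots 2 l₀).toFinset (Polynomial.nthRoots 2 l₀).toFinset (by omega)
    (fun l v h0 hv _ hz => hin l v h0 hv hz) (fun l v h0 hv _ hz => hin l v h0 hv hz)
  refine ⟨v, hv0, hQv, ⟨l, hl⟩, ?_⟩
  rcases hJv with h | h
  · exact ⟨1, by rw [h, one_smul]⟩
  · exact ⟨-1, by rw [h]; simp⟩

end Vale.Agent.P011.H44.Rl
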