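import Vale.Agent.P011.H44.Rl.Cj
import Vale.Agent.P011.H44.Rl.Eig

/-!
Common eigenvectors of rank one of two commuting elements of the compact group of type `E₆`.
-/

open Module

namespace Vale.Agent.P011.H44.Rl

open Vale.Agent.P011.MPQ Vale.Agent.P011.D4 Vale.Agent.P011.D4.Oct Vale.Agent.P011.E6
open Vale.Agent.P011.E6.Alb Vale.Agent.P011.H261.Rl
open scoped ComplexConjugate

/-- The cubic form on a line. -/
theorem cub_line (x y : VC) (s : ℂ) : cub (y + s • x) =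
    cub x * s ^ 3 + tf y (adj x) * s ^ 2 + tf (adj y) x * s + cub y := by
  rw [cub_add, cub_smul, adj_smul, tf_smul_right, tf_smul_right]
  ring

theorem tf_adj_of_cub {g : VC → VC} (hadd : ∀ x y, g (x + y) = g x + g y)
    (hsm : ∀ (s : ℂ) x, g (s • x) = s • g x) (h : ∀ x, cub (g x) = cub x) (x y : VC) :
    tf (adj (g x)) (g y) = tf (adj x) y := by
  have key : ∀ s : ℂ, tf (g x) (adj (g y)) * s ^ 2 + tf (adj (g x)) (g y) * s =
      tf x (adj y) * s ^ 2 + tf (adj x) y * s := fun s => by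
    have h1 := h (x + s • y)
    rw [hadd, hsm, cub_line, cub_line, h, h] at h1
    linear_combination h1
  have h1 := key 1
  have h2 := key (-1)
  linear_combination (1 / 2) * h1 - (1 / 2) * h2

/-- The adjoint map and the elements of the compact group. -/
theorem adj_of_isE {g : VC →ₗ[ℂ] VC} (hN : ∀ x, cub (g x) = cub x)
    (hU : ∀ x y, inner ℂ (g x) (g y) = inner ℂ x y) (x : VC) :
    adj (g x) = cj (g (cj (adj x))) := by
  have hinj : Function.Injective g := by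
    intro x y hxy
    have h1 := hU (x - y) (x - y)
    rw [map_sub, hxy, sub_self, inner_zero_left] at h1
    exact sub_eq_zero.1 (inner_self_eq_zero.1 h1.symm)
  have hsurj : Function.Surjective g := LinearMap.surjective_of_injective hinj
  refine eq_of_tf fun z => ?_
  obtain ⟨y, rfl⟩ := hsurj z
  rw [tf_adj_of_cub (g := g) (fun x y => map_add g x y) (fun s x => map_smul g s x) hN,
    ← inner_eq_tf, hU, inner_eq_tf, cj_cj]

/-- The octonions as entries at `(2,3)`. -/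
noncomputable def in1 : OC →ₗ[ℂ] VC where
  toFun x := ⟨0, 0, 0, x, 0, 0⟩
  map_add' x y := by ext1 <;> simp
  map_smul' s x := by ext1 <;> simp

theorem in1_injective : Function.Injective in1 := fun _ _ h => congrArg Alb.x1 h

/-- **A common eigenvector of rank one.** -/
theorem exists_rank_one_alb {k J : VC →ₗ[ℂ] VC} (hNk : ∀ x, cub (k x) = cub x)
    (hk : ∀ x y, inner ℂ (k x) (k y) = inner ℂ x y) (hNJ : ∀ x, cub (J x) = cub x)
    (hJU : ∀ x y, inner ℂ (J x) (J y) = inner ℂ x y) (hJ : ∀ x, J (J x) = x)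
    (hkJ : ∀ x, k (J x) = J (k x)) :
    ∃ x, x ≠ 0 ∧ adj x = 0 ∧ (∃ l : ℂ, k x = l • x) ∧ ∃ m : ℂ, J x = m • x := by
  have hd : 3 < finrank ℂ VC := by
    have h1 := LinearMap.finrank_le_finrank_of_injective in1_injective
    rw [finrank_oct] at h1
    omega
  obtain ⟨x, hx, hq, h1, h2⟩ := exists_rank_one (V := VC) hd (N := cub) (q := fun x => cj (adj x))
    (fun x y => ⟨tf y (adj x), tf (adj y) x, fun s => cub_line x y s⟩)
    (fun s x => cub_smul s x) (fun s x => ⟨conj (s ^ 2), by rw [adj_smul, cj_smul]⟩)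
    (fun x hx => by rw [adj_cj, adj_adj, hx, zero_smul, cj_zero, cj_zero])
    hk hJ hkJ hNk hNJ (fun x => by rw [adj_of_isE hNk hk, cj_cj])
    (fun x => by rw [adj_of_isE hNJ hJU, cj_cj])
  refine ⟨x, hx, ?_, h1, h2⟩
  have : cj (cj (adj x)) = cj 0 := congrArg cj hq
  rwa [cj_cj, cj_zero] at this

theorem cross_of_isE {g : VC →ₗ[ℂ] VC} (hN : ∀ x, cub (g x) = cub x)
    (hU : ∀ x y, inner ℂ (g x) (g y) = inner ℂ x y) (x y : VC) :
    cross (g x) (g y) = cj (g (cj (cross x y))) := by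
  have h1 : ∀ x y : VC, cross x y = adj (x + y) + (-1 : ℂ) • adj x + (-1 : ℂ) • adj y :=
    fun x y => by rw [adj_add, neg_one_smul, neg_one_smul]; abel
  rw [h1 (g x), h1 x, ← map_add g, adj_of_isE hN hU, adj_of_isE hN hU, adj_of_isE hN hU, cj_add,
    cj_add, cj_smul, cj_smul, map_add, map_add, map_smul, map_smul, cj_add, cj_add, cj_smul,
    cj_smul]
  simp

/-- The space of the elements orthogonal to `e₁` and to the entries at `(3,1)` and `(1,2)`. -/
def W1 : Submodule ℂ VC where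
  carrier := {y | y.d1 = 0 ∧ y.x2 = 0 ∧ y.x3 = 0}
  add_mem' := fun ⟨h1, h2, h3⟩ ⟨h4, h5, h6⟩ =>
    ⟨by rw [d1_add, h1, h4, add_zero], by rw [x2_add, h2, h5, add_zero],
      by rw [x3_add, h3, h6, add_zero]⟩
  zero_mem' := ⟨rfl, rfl, rfl⟩
  smul_mem' := fun s _ ⟨h1, h2, h3⟩ =>
    ⟨by rw [d1_smul, h1, mul_zero], by rw [x2_smul, h2, smul_zero],
      by rw [x3_smul, h3, smul_zero]⟩

theorem mem_W1 {y : VC} : y ∈ W1 ↔ y.d1 = 0 ∧ y.x2 = 0 ∧ y.x3 = 0 := Iff.rfl

theorem cross_e1 (y : VC) : cross e1 y = ⟨0, y.d3, y.d2, -y.x1, 0, 0⟩ := by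
  ext1 <;> simp [cross, e1, bil]

theorem adj_of_mem {y : VC} (h : y ∈ W1) : adj y = (y.d2 * y.d3 - Oct.norm y.x1) • e1 := by
  obtain ⟨h1, h2, h3⟩ := mem_W1.1 h
  ext1 <;> simp [adj, e1, h1, h2, h3]

theorem map_mem_W1 {g : VC →ₗ[ℂ] VC} (hN : ∀ x, cub (g x) = cub x)
    (hU : ∀ x y, inner ℂ (g x) (g y) = inner ℂ x y) {l : ℂ} (h1 : g e1 = l • e1) (w : VC)
    (hw : w ∈ W1) : g w ∈ W1 := by
  obtain ⟨h2, h3, h4⟩ := mem_W1.1 hw
  have e : cross e1 (⟨0, conj w.d3, conj w.d2, -cjo w.x1, 0, 0⟩ : VC) = cj w := by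
    rw [cross_e1]
    ext1 <;> simp [cj, h2, h3, h4, cjo, cjq]
    all_goals rfl
  have h5 := cross_of_isE hN hU e1 (⟨0, conj w.d3, conj w.d2, -cjo w.x1, 0, 0⟩ : VC)
  rw [e, cj_cj, h1, cross_smul_left, cross_e1] at h5
  have h6 := congrArg cj h5
  rw [cj_cj] at h6
  rw [← h6]
  refine mem_W1.2 ⟨?_, ?_, ?_⟩ <;> simp [cj, cjo, cjq] <;> rfl

/-- **A common eigenvector of rank one in the space of dimension ten.** -/
theorem exists_rank_one_W1 {k J : VC →ₗ[ℂ] VC} (hNk : ∀ x, cub (k x) = cub x)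
    (hk : ∀ x y, inner ℂ (k x) (k y) = inner ℂ x y) (hNJ : ∀ x, cub (J x) = cub x)
    (hJU : ∀ x y, inner ℂ (J x) (J y) = inner ℂ x y) (hJ : ∀ x, J (J x) = x)
    (hkJ : ∀ x, k (J x) = J (k x)) {l₁ m₁ : ℂ} (hk1 : k e1 = l₁ • e1) (hJ1 : J e1 = m₁ • e1) :
    ∃ y, y ≠ 0 ∧ y.d1 = 0 ∧ y.x2 = 0 ∧ y.x3 = 0 ∧ adj y = 0 ∧ (∃ l : ℂ, k y = l • y) ∧
      ∃ m : ℂ, J y = m • y := by
  have hkW := map_mem_W1 hNk hk hk1
  have hJW := map_mem_W1 hNJ hJU hJ1
  have hd : 4 < finrank ℂ W1 := by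
    have h1 : ∀ x, in1 x ∈ W1 := fun x => ⟨rfl, rfl, rfl⟩
    have h2 := LinearMap.finrank_le_finrank_of_injective (f := in1.codRestrict W1 h1)
      (fun x y h => in1_injective (congrArg Subtype.val h))
    rw [finrank_oct] at h2
    omega
  obtain ⟨y, hy0, hQ, ⟨l, hl⟩, m, hm⟩ := exists_isotropic (V := W1) hd
    (Q := fun y => (y : VC).d2 * (y : VC).d3 - Oct.norm (y : VC).x1)
    (fun x y => ⟨(x : VC).d2 * (y : VC).d3 + (y : VC).d2 * (x : VC).d3 -
      bil (x : VC).x1 (y : VC).x1, fun s => by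
        simp only [Submodule.coe_add, Submodule.coe_smul, d2_add, d3_add, x1_add, d2_smul,
          d3_smul, x1_smul, norm_add, Oct.norm_smul, bil_smul_right]
        rw [bil_comm (y : VC).x1]
        ring⟩)
    (fun s x => by
      simp only [Submodule.coe_smul, d2_smul, d3_smul, x1_smul, Oct.norm_smul]
      ring)
    (k := k.restrict hkW) (J := J.restrict hJW) (fun x y => hk x y)
    (fun x => Subtype.ext (hJ x)) (fun x => Subtype.ext (hkJ x)) (l₀ := conj l₁)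
    (fun x => by
      have h1 := adj_of_mem (hkW _ x.2)
      rw [adj_of_isE hNk hk, adj_of_mem x.2, cj_smul] at h1
      have e : cj (e1 : VC) = e1 := by ext1 <;> simp [cj, e1, cjo, cjq] <;> rfl
      rw [e, map_smul, hk1, smul_smul, cj_smul, e] at h1
      have h2 := congrArg Alb.d1 h1
      simp only [e1, d1_smul, map_mul, Complex.conj_conj, mul_one] at h2
      change (k x).d2 * (k x).d3 - Oct.norm (k x).x1 = _
      rw [← h2]
      ring)
  obtain ⟨h1, h2, h3⟩ := mem_W1.1 y.2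
  refine ⟨y, fun h => hy0 (Subtype.ext h), h1, h2, h3, ?_, ⟨l, ?_⟩, m, ?_⟩
  · rw [adj_of_mem y.2, hQ, zero_smul]
  · have := congrArg Subtype.val hl
    simpa using this
  · have := congrArg Subtype.val hm
    simpa using this

end Vale.Agent.P011.H44.Rl
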