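import Vale.Agent.P011.H44.Rl.EigA

/-!
The elements of the compact group of type `E₆` that fix the three idempotents are the
complexifications of related triples of the compact octonions.
-/

open Module

namespace Vale.Agent.P011.H44.Rl

open Vale.Agent.P011.MPQ Vale.Agent.P011.D4 Vale.Agent.P011.D4.Oct Vale.Agent.P011.E6
open Vale.Agent.P011.E6.Alb Vale.Agent.P011.H261.Rl
open scoped ComplexConjugate

/-- The real quaternions. -/
abbrev QR : Type := Qt (-1 : ℝˣ) (-1 : ℝˣ)

/-- The compact octonions. -/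
abbrev OR : Type := Oct (-1 : ℝˣ) (-1 : ℝˣ) (-1 : ℝˣ)

/-- A real quaternion as a complex quaternion. -/
def upq (x : QR) : QC := ⟨(x.re : ℂ), (x.imI : ℂ), (x.imJ : ℂ), (x.imK : ℂ)⟩

/-- A real octonion as a complex octonion. -/
def upo (x : OR) : OC := ⟨upq x.fst, upq x.snd⟩

/-- The real part of a complex octonion. -/
def reo (x : OC) : OR :=
  ⟨⟨x.fst.re.re, x.fst.imI.re, x.fst.imJ.re, x.fst.imK.re⟩,
    ⟨x.snd.re.re, x.snd.imI.re, x.snd.imJ.re, x.snd.imK.re⟩⟩

/-- The imaginary part of a complex octonion. -/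
def imo (x : OC) : OR :=
  ⟨⟨x.fst.re.im, x.fst.imI.im, x.fst.imJ.im, x.fst.imK.im⟩,
    ⟨x.snd.re.im, x.snd.imI.im, x.snd.imJ.im, x.snd.imK.im⟩⟩

theorem upq_add (x y : QR) : upq (x + y) = upq x + upq y := by ext <;> simp [upq]
theorem upq_neg (x : QR) : upq (-x) = -upq x := by ext <;> simp [upq]
theorem upq_mul (x y : QR) : upq (x * y) = upq x * upq y := by ext <;> simp [upq]
theorem upq_star (x : QR) : upq (star x) = star (upq x) := by ext <;> simp [upq]
theorem upq_smul (s : ℝ) (x : QR) : upq (s • x) = (s : ℂ) • upq x := by ext <;> simp [upq]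

theorem upo_add (x y : OR) : upo (x + y) = upo x + upo y := by
  ext1
  · exact upq_add _ _
  · exact upq_add _ _

theorem upo_neg (x : OR) : upo (-x) = -upo x := by
  ext1
  · exact upq_neg _
  · exact upq_neg _

theorem upo_smul (s : ℝ) (x : OR) : upo (s • x) = (s : ℂ) • upo x := by
  ext1
  · exact upq_smul _ _
  · exact upq_smul _ _

theorem upo_star (x : OR) : upo (star x) = star (upo x) := by
  ext1
  · exact upq_star _
  · exact upq_neg _

theorem upo_mul (x y : OR) : upo (x * y) = upo x * upo y := by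
  ext1
  · change upq (x.fst * y.fst + ((-1 : ℝˣ) : ℝ) • (star y.snd * x.snd)) =
      upq x.fst * upq y.fst + ((-1 : ℂˣ) : ℂ) • (star (upq y.snd) * upq x.snd)
    rw [upq_add, upq_mul, upq_smul, upq_mul, upq_star]
    simp
  · change upq (y.snd * x.fst + x.snd * star y.fst) =
      upq y.snd * upq x.fst + upq x.snd * star (upq y.fst)
    rw [upq_add, upq_mul, upq_mul, upq_star]

theorem upo_one : upo (1 : OR) = 1 := by
  ext1 <;> ext <;> simp [upo, upq]

theorem norm_upo (x : OR) : Oct.norm (upo x) = ((Oct.norm x : ℝ) : ℂ) := by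
  simp [Oct.norm, nrd, upo, upq]

theorem bil_upo (x y : OR) : bil (upo x) (upo y) = ((bil x y : ℝ) : ℂ) := by
  rw [bil, bil, ← upo_add, norm_upo, norm_upo, norm_upo, Complex.ofReal_sub, Complex.ofReal_sub]

theorem upo_injective : Function.Injective upo := by
  intro x y h
  refine ext8 ?_ ?_ ?_ ?_ ?_ ?_ ?_ ?_
  · exact Complex.ofReal_injective (congrArg (fun z : OC => z.fst.re) h)
  · exact Complex.ofReal_injective (congrArg (fun z : OC => z.fst.imI) h)
  · exact Complex.ofReal_injective (congrArg (fun z : OC => z.fst.imJ) h)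
  · exact Complex.ofReal_injective (congrArg (fun z : OC => z.fst.imK) h)
  · exact Complex.ofReal_injective (congrArg (fun z : OC => z.snd.re) h)
  · exact Complex.ofReal_injective (congrArg (fun z : OC => z.snd.imI) h)
  · exact Complex.ofReal_injective (congrArg (fun z : OC => z.snd.imJ) h)
  · exact Complex.ofReal_injective (congrArg (fun z : OC => z.snd.imK) h)

theorem cjo_upo (x : OR) : cjo (upo x) = upo x := by
  ext1 <;> ext <;> simp [cjo, cjq, upo, upq]

theorem upo_zero : upo (0 : OR) = 0 := by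
  ext1 <;> ext <;> simp [upo, upq]

theorem reo_add (x y : OC) : reo (x + y) = reo x + reo y := by
  refine ext8 ?_ ?_ ?_ ?_ ?_ ?_ ?_ ?_ <;> simp [reo]

theorem imo_add (x y : OC) : imo (x + y) = imo x + imo y := by
  refine ext8 ?_ ?_ ?_ ?_ ?_ ?_ ?_ ?_ <;> simp [imo]

theorem reo_smul (s : ℂ) (x : OC) : reo (s • x) = s.re • reo x - s.im • imo x := by
  refine ext8 ?_ ?_ ?_ ?_ ?_ ?_ ?_ ?_ <;> simp [reo, imo]

theorem imo_smul (s : ℂ) (x : OC) : imo (s • x) = s.re • imo x + s.im • reo x := by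
  refine ext8 ?_ ?_ ?_ ?_ ?_ ?_ ?_ ?_ <;> simp [reo, imo]

theorem reo_upo (x : OR) : reo (upo x) = x := by
  refine ext8 ?_ ?_ ?_ ?_ ?_ ?_ ?_ ?_ <;> simp [reo, upo, upq]

theorem imo_upo (x : OR) : imo (upo x) = 0 := by
  refine ext8 ?_ ?_ ?_ ?_ ?_ ?_ ?_ ?_ <;> simp [imo, upo, upq]

theorem re_im_o (x : OC) : upo (reo x) + Complex.I • upo (imo x) = x := by
  refine ext8 ?_ ?_ ?_ ?_ ?_ ?_ ?_ ?_ <;>
    simp [reo, imo, upo, upq, mul_comm Complex.I, Complex.re_add_im]

theorem eq_upo_of_cjo {x : OC} (h : cjo x = x) : upo (reo x) = x := by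
  have hc : ∀ z : ℂ, conj z = z → ((z.re : ℝ) : ℂ) = z := fun z hz =>
    Complex.conj_eq_iff_re.1 hz
  refine ext8 ?_ ?_ ?_ ?_ ?_ ?_ ?_ ?_
  · exact hc _ (congrArg (fun z : OC => z.fst.re) h)
  · exact hc _ (congrArg (fun z : OC => z.fst.imI) h)
  · exact hc _ (congrArg (fun z : OC => z.fst.imJ) h)
  · exact hc _ (congrArg (fun z : OC => z.fst.imK) h)
  · exact hc _ (congrArg (fun z : OC => z.snd.re) h)
  · exact hc _ (congrArg (fun z : OC => z.snd.imI) h)
  · exact hc _ (congrArg (fun z : OC => z.snd.imJ) h)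
  · exact hc _ (congrArg (fun z : OC => z.snd.imK) h)

/-- The complexification of a real linear map of the compact octonions. -/
noncomputable def cxo (s : OR →ₗ[ℝ] OR) : OC →ₗ[ℂ] OC where
  toFun x := upo (s (reo x)) + Complex.I • upo (s (imo x))
  map_add' x y := by
    rw [reo_add, imo_add, map_add, map_add, upo_add, upo_add, smul_add]
    abel
  map_smul' t x := by
    rw [reo_smul, imo_smul, map_sub, map_add, map_smul, map_smul, map_smul, map_smul,
      sub_eq_add_neg, upo_add, upo_add, upo_neg, upo_smul, upo_smul, upo_smul, upo_smul,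
      RingHom.id_apply, smul_add, smul_add, smul_smul, smul_smul, smul_smul]
    have h1 : Complex.I * (t.im : ℂ) = t - t.re := by
      rw [mul_comm]
      linear_combination Complex.re_add_im t
    have h2 : t * Complex.I = t.re * Complex.I - t.im := by
      have := Complex.re_add_im t
      calc t * Complex.I = (t.re + t.im * Complex.I) * Complex.I := by rw [this]
        _ = t.re * Complex.I + t.im * (Complex.I * Complex.I) := by ring
        _ = _ := by rw [Complex.I_mul_I]; ring
    rw [h1, h2, mul_comm Complex.I (t.re : ℂ), sub_smul, sub_smul]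
    abel

theorem cxo_apply (s : OR →ₗ[ℝ] OR) (x : OC) :
    cxo s x = upo (s (reo x)) + Complex.I • upo (s (imo x)) := rfl

theorem cxo_upo (s : OR →ₗ[ℝ] OR) (x : OR) : cxo s (upo x) = upo (s x) := by
  rw [cxo_apply, reo_upo, imo_upo, map_zero, upo_zero, smul_zero, add_zero]

/-- Two complex linear maps that agree on the real octonions are equal. -/
theorem ext_upo {f g : OC →ₗ[ℂ] OC} (h : ∀ x, f (upo x) = g (upo x)) : f = g := by
  ext1 x
  rw [← re_im_o x, map_add, map_add, map_smul, map_smul, h, h]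

theorem cxo_one : cxo 1 = 1 := ext_upo fun x => by
  rw [cxo_upo]; rfl

theorem cxo_mul (s t : OR →ₗ[ℝ] OR) : cxo (s * t) = cxo s * cxo t := ext_upo fun x => by
  rw [cxo_upo, Module.End.mul_apply, Module.End.mul_apply, cxo_upo, cxo_upo]

theorem cxo_add (s t : OR →ₗ[ℝ] OR) : cxo (s + t) = cxo s + cxo t := ext_upo fun x => by
  rw [cxo_upo, LinearMap.add_apply, LinearMap.add_apply, cxo_upo, cxo_upo, upo_add]

theorem cxo_smul (r : ℝ) (t : OR →ₗ[ℝ] OR) : cxo (r • t) = (r : ℂ) • cxo t :=
  ext_upo fun x => by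
    rw [cxo_upo, LinearMap.smul_apply, LinearMap.smul_apply, cxo_upo, upo_smul]

theorem cxo_cjo (s : OR →ₗ[ℝ] OR) (x : OC) : cxo s (cjo x) = cjo (cxo s x) := by
  have h1 : ∀ y z : OR, cjo (upo y + Complex.I • upo z) = upo y + (-Complex.I) • upo z := by
    intro y z
    rw [cjo_add, cjo_smul, cjo_upo, cjo_upo, Complex.conj_I]
  conv_lhs => rw [← re_im_o x, h1, map_add, map_smul, cxo_upo, cxo_upo]
  rw [cxo_apply, h1]

end Vale.Agent.P011.H44.Rl
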